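import Vale.Agent.P329.Walk

/-! P329: the departures of a letter from a state of a walk in `ZMod p`. -/

namespace Vale.Agent.P329

open Finset
open scoped Computability

variable {α : Type} {p : ℕ} [Fact p.Prime] (δ : α → ZMod p)

/-- Number of occurrences of `c` read in state `0`, the word being read from state `i`. -/
def dep [DecidableEq α] (c : α) : ZMod p → List α → ℤ
  | _, [] => 0
  | i, a :: w => (if i = 0 ∧ a = c then 1 else 0) + dep c (i + δ a) w

/-- Total of `Y` over the completed blocks between successive visits to `0`. -/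
def run (Y : List α → ℤ) : ZMod p → List α → List α → ℤ
  | _, _, [] => 0
  | i, acc, a :: w =>
    if i + δ a = 0 then Y (acc ++ [a]) + run Y 0 [] w else run Y (i + δ a) (acc ++ [a]) w

/-- All interior boundaries are marked. -/
def allMarked : α → α → Bool := fun _ _ => true

/-- Words whose first visit to `0` from `i` is at their end. -/
def Head (i : ZMod p) : Language α :=
  mk fun h => h ≠ [] ∧ mv δ allMarked i h ⊆ univ.erase 0 ∧ i + wsum δ h = 0

lemma nil_notMem_head (i : ZMod p) : [] ∉ Head δ i := fun h => h.1 rfl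

lemma head_cons (i : ZMod p) (a : α) (w : List α) :
    a :: w ∈ Head δ i ↔
      (w = [] ∧ i + δ a = 0) ∨ (i + δ a ≠ 0 ∧ w ∈ Head δ (i + δ a)) := by
  cases w with
  | nil => simp [Head, mv]
  | cons b w =>
    simp only [Head, mem_mk, ne_eq, reduceCtorEq, not_false_eq_true, true_and, false_and, false_or,
      wsum_cons, mv, allMarked, if_true, union_subset_iff, singleton_subset_iff, mem_erase,
      mem_univ, and_true, add_assoc]
    tauto

/-- No nonempty prefix returns to `0`. -/
def NoHit (i : ZMod p) (w : List α) : Prop := ¬ ∃ h t, h ∈ Head δ i ∧ w = h ++ t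

lemma noHit_cons {i : ZMod p} {a : α} {w : List α} (h : NoHit δ i (a :: w)) :
    i + δ a ≠ 0 ∧ NoHit δ (i + δ a) w := by
  have hne : i + δ a ≠ 0 := fun e => h ⟨[a], w, (head_cons δ i a []).2 (Or.inl ⟨rfl, e⟩), rfl⟩
  refine ⟨hne, ?_⟩
  rintro ⟨u, t, hu, rfl⟩
  exact h ⟨a :: u, t, (head_cons δ i a u).2 (Or.inr ⟨hne, hu⟩), rfl⟩

lemma exists_hit : ∀ (w : List α) (i : ZMod p), w ≠ [] → i + wsum δ w = 0 →
    ∃ h t, h ∈ Head δ i ∧ w = h ++ t
  | [], _, h, _ => absurd rfl h
  | a :: w, i, _, hs => by
    by_cases h0 : i + δ a = 0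
    · exact ⟨[a], w, (head_cons δ i a []).2 (Or.inl ⟨rfl, h0⟩), rfl⟩
    · rw [wsum_cons, ← add_assoc] at hs
      have hw : w ≠ [] := fun e => h0 (by simpa [e] using hs)
      obtain ⟨u, t, hu, rfl⟩ := exists_hit w (i + δ a) hw hs
      exact ⟨a :: u, t, (head_cons δ i a u).2 (Or.inr ⟨h0, hu⟩), rfl⟩

section values

variable (Y : List α → ℤ)

lemma run_head : ∀ (h : List α) (i : ZMod p) (acc t : List α), h ∈ Head δ i →
    run δ Y i acc (h ++ t) = Y (acc ++ h) + run δ Y 0 [] t
  | [], i, _, _, h => absurd h (nil_notMem_head δ i)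
  | a :: h, i, acc, t, hh => by
    rcases (head_cons δ i a h).1 hh with ⟨rfl, h0⟩ | ⟨h0, hh'⟩
    · simp [run, h0]
    · rw [List.cons_append, run, if_neg h0, run_head h _ _ t hh', List.append_assoc]
      rfl

lemma run_tail : ∀ (w : List α) (i : ZMod p) (acc : List α), NoHit δ i w →
    run δ Y i acc w = 0
  | [], _, _, _ => rfl
  | a :: w, i, acc, h => by
    obtain ⟨h0, hw⟩ := noHit_cons δ h
    rw [run, if_neg h0, run_tail w _ _ hw]

variable [DecidableEq α] (c : α)

lemma dep_head : ∀ (h : List α) (i : ZMod p) (t : List α), h ∈ Head δ i →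
    dep δ c i (h ++ t) = (if i = 0 ∧ h.head? = some c then 1 else 0) + dep δ c 0 t
  | [], i, _, h => absurd h (nil_notMem_head δ i)
  | a :: h, i, t, hh => by
    rcases (head_cons δ i a h).1 hh with ⟨rfl, h0⟩ | ⟨h0, hh'⟩
    · simp [dep, h0]
    · rw [List.cons_append, dep, dep_head h _ t hh']
      simp [h0]

lemma dep_shift_head : ∀ (h : List α) (i : ZMod p) (t : List α), h ∈ Head δ i →
    dep δ c (i + δ c) (h ++ t) = (if h.getLast? = some c then 1 else 0) + dep δ c (δ c) t
  | [], i, _, h => absurd h (nil_notMem_head δ i)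
  | a :: h, i, t, hh => by
    have e : i + δ c + δ a = i + δ a + δ c := by ring
    rcases (head_cons δ i a h).1 hh with ⟨rfl, h0⟩ | ⟨h0, hh'⟩
    · rw [List.cons_append, List.nil_append, dep, e, h0, zero_add]
      by_cases hac : a = c
      · subst hac; simp [h0]
      · simp [hac]
    · have hne : h ≠ [] := fun x => nil_notMem_head δ _ (x ▸ hh')
      rw [List.cons_append, dep, e, dep_shift_head h _ t hh']
      have hlast : (a :: h).getLast? = h.getLast? := by
        cases h with
        | nil => exact absurd rfl hne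
        | cons b r => exact List.getLast?_cons_cons
      rw [hlast, if_neg, zero_add]
      rintro ⟨h1, rfl⟩
      exact h0 h1

lemma dep_tail : ∀ (w : List α) (i : ZMod p), NoHit δ i w →
    dep δ c i w = if i = 0 ∧ w.head? = some c then 1 else 0
  | [], _, _ => by simp [dep]
  | a :: w, i, h => by
    obtain ⟨h0, hw⟩ := noHit_cons δ h
    rw [dep, dep_tail w _ hw]
    simp [h0]

lemma dep_shift_tail : ∀ (w : List α) (i : ZMod p), NoHit δ i w → dep δ c (i + δ c) w = 0
  | [], _, _ => rfl
  | a :: w, i, h => by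
    obtain ⟨h0, hw⟩ := noHit_cons δ h
    have e : i + δ c + δ a = i + δ a + δ c := by ring
    rw [dep, e, dep_shift_tail w _ hw, add_zero, if_neg]
    rintro ⟨h1, rfl⟩
    exact h0 h1

end values

/-- Words over a set of letters. -/
lemma has_all [Fintype α] (S : α → Prop) : Has 0 (mk fun w : List α => ∀ x ∈ w, S x) := by
  have hmem : ∀ a : α, Has 0 (mk fun w : List α => a ∈ w) := fun a =>
    ((Has.true'.concat' (Has.single' a)).concat' Has.true').of_iff fun w => by
      simp only [mem_mk]
      constructor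
      · rintro ⟨u, v, ⟨x, y, -, rfl, rfl⟩, -, rfl⟩
        simp
      · intro h
        obtain ⟨x, y, rfl⟩ := List.append_of_mem h
        exact ⟨x ++ [a], y, ⟨x, [a], trivial, rfl, rfl⟩, trivial, by simp⟩
  refine ((Has.iUnion' (P := fun a w => ¬ S a ∧ a ∈ w) fun a =>
    (Has.const' _).inter' (hmem a)).not').of_iff fun w => ?_
  simp only [mem_mk, not_exists, not_and]
  exact ⟨fun h x hx => by_contra fun hS => h x hS hx, fun h x hS hx => hS (h x hx)⟩

/-- An interior boundary is marked unless a letter in `Q` meets a letter in `P`. -/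
def mark (P Q : α → Bool) : α → α → Bool := fun a b => !(Q a && P b)

/-- The first letter is in `P` and the last one in `Q`. -/
def rect (P Q : α → Bool) (b : List α) : Bool :=
  b.head?.any P && b.getLast?.any Q

lemma mv_empty_iff (P Q : α → Bool) : ∀ (mid : List α) (a b : α) (i : ZMod p),
    mv δ (mark P Q) i (a :: (mid ++ [b])) ⊆ ∅ ↔
      Q a ∧ P b ∧ ∀ x ∈ mid, P x ∧ Q x
  | [], a, b, i => by
    simp only [List.nil_append, mv, mark, List.not_mem_nil, IsEmpty.forall_iff, implies_true]
    by_cases hq : Q a <;> by_cases hp : P b <;> simp [hq, hp]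
  | x :: mid, a, b, i => by
    simp only [List.cons_append, mv, union_subset_iff, mv_empty_iff P Q mid x b, List.mem_cons,
      forall_eq_or_imp, mark]
    by_cases hq : Q a <;> by_cases hp : P x <;> simp [hq, hp]
    tauto

/-- The unmarked walk is star-free when the letters in both sets do not move. -/
lemma has_base [Fintype α] {P Q : α → Bool} (hPQ : ∀ x, P x → Q x → δ x = 0) (i j : ZMod p) :
    Has 0 (SW δ (mark P Q) ∅ i j) := by
  have hsum : ∀ mid : List α, (∀ x ∈ mid, P x ∧ Q x) → wsum δ mid = 0 := by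
    intro mid
    induction mid with
    | nil => simp
    | cons a w ih =>
      intro h
      rw [wsum_cons, ih fun x hx => h x (List.mem_cons_of_mem _ hx),
        hPQ a (h a List.mem_cons_self).1 (h a List.mem_cons_self).2, add_zero]
  refine ((Has.nil'.inter' (Has.const' (i = j))).or'
    ((Has.iUnion' (P := fun a w => i + δ a = j ∧ w = [a]) fun a =>
      (Has.const' _).inter' (Has.single' a)).or'
    (Has.iUnion'
      (P := fun (z : α × α) w => (Q z.1 ∧ P z.2 ∧ i + δ z.1 + δ z.2 = j) ∧
        ∃ u v, u = [z.1] ∧ (∃ mid r, (∀ x ∈ mid, P x ∧ Q x) ∧ r = [z.2] ∧ v = mid ++ r) ∧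
          w = u ++ v) fun z =>
      (Has.const' _).inter'
        ((Has.single' z.1).concat' ((has_all _).concat' (Has.single' z.2)))))).of_iff fun w => ?_
  simp only [mem_mk, SW]
  constructor
  · rintro (⟨rfl, h⟩ | ⟨a, h, rfl⟩ | ⟨⟨a, b⟩, ⟨hq, hp, h⟩, u, v, rfl, ⟨mid, r, hm, rfl, rfl⟩, rfl⟩)
    · simp [mv, h]
    · simp [mv, h]
    · refine ⟨(mv_empty_iff δ P Q mid a b i).2 ⟨hq, hp, hm⟩, ?_⟩
      rw [List.singleton_append, wsum_cons, wsum_append, hsum mid hm, ← h]
      simp [add_assoc]
  · rintro ⟨hv, hs⟩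
    rcases w with _ | ⟨a, w⟩
    · exact Or.inl ⟨rfl, by simpa using hs⟩
    rcases List.eq_nil_or_concat w with rfl | ⟨mid, b, rfl⟩
    · exact Or.inr (Or.inl ⟨a, by simpa using hs, rfl⟩)
    · rw [List.concat_eq_append] at hv hs ⊢
      obtain ⟨hq, hp, hm⟩ := (mv_empty_iff δ P Q mid a b i).1 hv
      rw [wsum_cons, wsum_append, hsum mid hm] at hs
      exact Or.inr (Or.inr ⟨(a, b), ⟨hq, hp, by simpa [add_assoc] using hs⟩, [a], _, rfl,
        ⟨mid, [b], hm, rfl, rfl⟩, rfl⟩)

lemma univ_erase_ne : (univ.erase 0 : Finset (ZMod p)) ≠ univ := fun h =>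
  notMem_erase (0 : ZMod p) univ (by rw [h]; exact mem_univ _)

lemma has_head [Fintype α] (i : ZMod p) : Has 0 (Head δ i) := by
  have h : Has 0 (mk fun w => mv δ allMarked i w ⊆ univ.erase 0 ∧ i + wsum δ w = 0) :=
    sf_SW δ allMarked
      (fun i j => has_base δ (P := fun _ => false) (Q := fun _ => false) (by simp) i j)
      _ univ_erase_ne i 0
  exact (Has.nil'.not'.inter' h).of_iff fun w => Iff.rfl

lemma has_noHit [Fintype α] (i : ZMod p) : Has 0 (mk (NoHit δ i)) := has_tail (has_head δ i)

lemma mv_mono (m' : α → α → Bool) (i : ZMod p) : ∀ w : List α,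
    mv δ m' i w ⊆ mv δ allMarked i w := by
  intro w
  induction w generalizing i with
  | nil => simp [mv]
  | cons a w ih =>
    cases w with
    | nil => simp [mv]
    | cons b w =>
      simp only [mv, allMarked, if_true]
      exact union_subset_union (by split <;> simp) (ih _)

lemma mv_glue (m' : α → α → Bool) : ∀ (x : List α) (a b : α) (y : List α) (i : ZMod p),
    mv δ m' i (x ++ a :: b :: y) = mv δ m' i (x ++ [a]) ∪
      ((if m' a b then {i + wsum δ (x ++ [a])} else ∅) ∪
        mv δ m' (i + wsum δ (x ++ [a])) (b :: y))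
  | [], a, b, y, i => by simp [mv]
  | c :: x, a, b, y, i => by
    have e : i + δ c + wsum δ (x ++ [a]) = i + wsum δ (c :: x ++ [a]) := by simp [add_assoc]
    cases x with
    | nil =>
      have h := mv_glue m' [] a b y (i + δ c)
      simp only [List.nil_append] at h e
      simp only [List.cons_append, List.nil_append, mv, empty_union] at h e ⊢
      simp [h, union_assoc, add_assoc]
    | cons d x =>
      have h := mv_glue m' (d :: x) a b y (i + δ c)
      simp only [List.cons_append, mv] at h e ⊢
      rw [h, e, union_assoc]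

/-- Blocks from `0` to `0` inside a rectangle of first and last letters. -/
def Zlang (P Q : α → Bool) : Language α := mk fun b => b ∈ Head δ 0 ∧ rect P Q b

lemma has_rect [Fintype α] (P Q : α → Bool) : Has 0 (mk fun w : List α => rect P Q w) := by
  refine (Has.iUnion' (P := fun (z : α × α) w => (P z.1 ∧ Q z.2) ∧
    (∃ t, w = z.1 :: t) ∧ ∃ t, w = t ++ [z.2]) fun z =>
      (Has.const' _).inter' ((Has.head' z.1).inter' (Has.last' z.2))).of_iff fun w => ?_
  simp only [mem_mk, rect]
  constructor
  · rintro ⟨⟨a, b⟩, ⟨hp, hq⟩, ⟨t, e⟩, ⟨u, e'⟩⟩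
    have h1 : w.head? = some a := by simp [e]
    have h2 : w.getLast? = some b := by simp [e']
    simp [h1, h2, hp, hq]
  · intro h
    rcases w with _ | ⟨a, t⟩
    · simp at h
    obtain ⟨u, b, e⟩ := (List.eq_nil_or_concat (a :: t)).resolve_left (by simp)
    rw [List.concat_eq_append] at e
    have h2 : (a :: t).getLast? = some b := by simp [e]
    simp [h2] at h
    exact ⟨(a, b), h, ⟨t, rfl⟩, ⟨u, e⟩⟩

lemma has_zlang_star [Fintype α] {P Q : α → Bool} (hPQ : ∀ x, P x → Q x → δ x = 0) :
    Has 0 (Zlang δ P Q)∗ := by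
  have hr := has_rect P Q
  have hsw : Has 0 (SW δ (mark P Q) (univ.erase 0) 0 0) :=
    sf_SW δ (mark P Q) (has_base δ hPQ) _ univ_erase_ne 0 0
  refine (Has.nil'.or' (hr.inter'
    (hsw.of_iff (M := mk fun w => w ∈ SW δ (mark P Q) (univ.erase 0) 0 0) fun w =>
      Iff.rfl))).of_iff fun w => ?_
  simp only [mem_mk, Language.mem_kstar]
  constructor
  · intro hw
    rcases hw with rfl | ⟨hrect, hv, hs⟩
    · exact ⟨[], rfl, by simp⟩
    induction hn : w.length using Nat.strongRecOn generalizing w with
    | _ n ih =>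
      have hne : w ≠ [] := by rintro rfl; simp [rect] at hrect
      obtain ⟨h, t, hh, rfl⟩ := exists_hit δ w 0 hne (by simpa using hs)
      obtain ⟨x, a, rfl⟩ := (List.eq_nil_or_concat h).resolve_left hh.1
      rw [List.concat_eq_append] at hh hv hs hrect hn ⊢
      have hsum : wsum δ (x ++ [a]) = 0 := by simpa [Head] using hh.2.2
      cases t with
      | nil =>
        rw [List.append_nil] at hrect ⊢
        exact ⟨[x ++ [a]], by simp, by simpa [Zlang] using ⟨hh, hrect⟩⟩
      | cons b y =>
        have hg := hv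
        rw [List.append_assoc, List.singleton_append, mv_glue, hsum, add_zero, union_subset_iff,
          union_subset_iff] at hg
        obtain ⟨-, hj, hy⟩ := hg
        have hm : mark P Q a b = false := by
          by_contra hc
          rw [Bool.not_eq_false] at hc
          simp [hc] at hj
        simp [mark] at hm
        have h2 : (x ++ [a] ++ b :: y).head? = (x ++ [a]).head? := by cases x <;> simp
        have h3 : (x ++ [a] ++ b :: y).getLast? = (b :: y).getLast? :=
          List.getLast?_append_of_ne_nil _ (by simp)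
        have hl : (x ++ [a]).getLast? = some a := by simp
        have hh1 : (b :: y).head? = some b := rfl
        simp only [rect, h2, h3, Bool.and_eq_true] at hrect
        have hlen : (b :: y).length < n := by rw [← hn]; simp; omega
        obtain ⟨L, hL, hLZ⟩ := ih _ hlen (b :: y) (by simp [rect, hm, hrect]) hy
          (by
            rw [zero_add, wsum_append, hsum, zero_add] at hs
            rw [zero_add]; exact hs) rfl
        refine ⟨(x ++ [a]) :: L, by simp [← hL], ?_⟩
        simp only [List.mem_cons, forall_eq_or_imp]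
        exact ⟨⟨hh, by simp only [rect, hl, Bool.and_eq_true]; exact ⟨hrect.1, hm.1⟩⟩, hLZ⟩
  · rintro ⟨L, rfl, hL⟩
    induction L with
    | nil => exact Or.inl rfl
    | cons z L ih =>
      simp only [List.mem_cons, forall_eq_or_imp] at hL
      obtain ⟨⟨hz, hrz⟩, hL'⟩ := hL
      obtain ⟨x, a, rfl⟩ := (List.eq_nil_or_concat z).resolve_left hz.1
      rw [List.concat_eq_append] at hz hrz ⊢
      have hsum : wsum δ (x ++ [a]) = 0 := by simpa [Head] using hz.2.2
      have hv := (mv_mono δ (mark P Q) 0 (x ++ [a])).trans hz.2.1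
      rcases ih hL' with hnil | ⟨hr', hv', hs'⟩
      · right
        rw [List.flatten_cons, hnil, List.append_nil]
        exact ⟨hrz, hv, by rw [hsum, add_zero]⟩
      · right
        rw [List.flatten_cons]
        obtain ⟨b, y, e⟩ : ∃ b y, L.flatten = b :: y := by
          rcases hw : L.flatten with _ | ⟨b, y⟩
          · simp [hw, rect] at hr'
          · exact ⟨b, y, rfl⟩
        rw [e] at hr' hv' hs' ⊢
        have h2 : (x ++ [a] ++ b :: y).head? = (x ++ [a]).head? := by cases x <;> simp
        have h3 : (x ++ [a] ++ b :: y).getLast? = (b :: y).getLast? :=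
          List.getLast?_append_of_ne_nil _ (by simp)
        simp only [rect, Bool.and_eq_true] at hr' hrz ⊢
        have hqa : Q a := by simpa using hrz.2
        have hpb : P b := by simpa using hr'.1
        refine ⟨⟨h2 ▸ hrz.1, h3 ▸ hr'.2⟩, ?_, ?_⟩
        · rw [List.append_assoc, List.singleton_append, mv_glue, hsum, add_zero]
          simpa [mark, hqa, hpb] using union_subset hv hv'
        · rw [wsum_append, hsum, zero_add]
          exact hs'

/-- The blocks outside a rectangle are counted at star height one. -/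
theorem detI_run [Fintype α] {P Q : α → Bool} (hPQ : ∀ x, P x → Q x → δ x = 0) :
    DetI (run δ (fun b => if rect P Q b then 0 else 1) 0 []) := by
  set F := run δ (fun b => if rect P Q b then 0 else 1) 0 [] with hF
  let C' : Language α := mk fun b => b ∈ Head δ 0 ∧ ¬ rect P Q b
  have hC' : Has 0 C' :=
    ((has_head δ 0).of_iff (M := mk fun b => b ∈ Head δ 0) fun _ => Iff.rfl).inter'
      (has_rect P Q).not'
  have hstar : ∀ u ∈ (Zlang δ P Q)∗, ∀ x, F (u ++ x) = F x := by
    intro u hu x
    obtain ⟨L, rfl, hL⟩ := Language.mem_kstar.1 hu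
    induction L with
    | nil => rfl
    | cons z L ih =>
      simp only [List.mem_cons, forall_eq_or_imp] at hL
      obtain ⟨hz, hr⟩ := hL.1
      rw [List.flatten_cons, List.append_assoc, hF, run_head δ _ z 0 [] _ hz, List.nil_append,
        if_pos hr, zero_add, ← hF]
      exact ih hL.2 (Language.join_mem_kstar hL.2)
  refine detI_count (B := (Zlang δ P Q)∗ * C') ((has_zlang_star δ hPQ).mul hC') ?_ ?_ ?_
  · rw [Language.mem_mul]
    rintro ⟨u, -, v, hv, e⟩
    exact hv.1.1 (List.append_eq_nil_iff.1 e).2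
  · intro b hb t
    obtain ⟨u, hu, v, ⟨hv, hr⟩, rfl⟩ := Language.mem_mul.1 hb
    rw [List.append_assoc, hstar u hu, hF, run_head δ _ v 0 [] _ hv, List.nil_append, if_neg hr]
  · intro t ht
    induction hn : t.length using Nat.strongRecOn generalizing t with
    | _ n ih =>
      by_cases hh : ∃ h r, h ∈ Head δ 0 ∧ t = h ++ r
      · obtain ⟨h, r, hhd, rfl⟩ := hh
        have hr : rect P Q h := by
          by_contra hr
          exact ht ⟨h, r, Language.mem_mul.2 ⟨[], Language.nil_mem_kstar _, h, ⟨hhd, hr⟩, rfl⟩, rfl⟩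
        rw [hF, run_head δ _ h 0 [] _ hhd, List.nil_append, if_pos hr, zero_add, ← hF]
        refine ih _ (by rw [← hn]; simpa using List.length_pos_iff.2 hhd.1) r ?_ rfl
        rintro ⟨b, s, hb, rfl⟩
        obtain ⟨u, hu, v, hv, rfl⟩ := Language.mem_mul.1 hb
        obtain ⟨L, rfl, hL⟩ := Language.mem_kstar.1 hu
        refine ht ⟨h ++ (L.flatten ++ v), s, Language.mem_mul.2
          ⟨(h :: L).flatten, Language.mem_kstar.2 ⟨h :: L, rfl, ?_⟩, v, hv, ?_⟩, ?_⟩
        · simp only [List.mem_cons, forall_eq_or_imp]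
          exact ⟨⟨hhd, hr⟩, hL⟩
        · simp
        · simp
      · rw [hF, run_tail δ _ t 0 [] hh]

/-- A statistic that changes like a known one over each block is known. -/
lemma detI_block [Fintype α] {D R g : List α → ℤ} (hR : DetI R) (hg : DetI g)
    (hD : ∀ b ∈ Head δ 0, ∀ t, D (b ++ t) - R (b ++ t) = D t - R t)
    (ht : ∀ t, NoHit δ 0 t → D t - R t = g t) : DetI D := by
  have hE : DetI fun w => D w - R w := by
    intro M hM u
    refine has_of_parse (has_head δ 0) (nil_notMem_head δ 0) (fun b hb t => by simp only [hD b hb t]) ?_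
    refine (((has_noHit δ 0).mono (Nat.zero_le _)).inter' (hg M hM u)).of_iff fun w => ?_
    simp only [mem_mk]
    exact and_congr_right fun h => by rw [ht w h]
  exact (hR.add hE).congr fun w => by ring

/-- From a statistic at `0` to the statistic at another start. -/
lemma detI_from [Fintype α] {D G : List α → ℤ} (i : ZMod p) (g : α → ℤ) (hD : DetI D)
    (hG : ∀ x a t, x ++ [a] ∈ Head δ i → G (x ++ [a] ++ t) = g a + D t)
    (ht : ∀ t, NoHit δ i t → G t = 0) : DetI G := by
  intro M hM u
  have h : ∀ a, Has 1 (mk fun w => ∃ x t, (x ∈ Head δ i ∧ ∃ y, x = y ++ [a]) ∧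
      ((g a + D t : ℤ) : ZMod M) = u ∧ w = x ++ t) := fun a =>
    Has.concat' (((((has_head δ i).of_iff (M := mk fun b => b ∈ Head δ i) fun _ => Iff.rfl).inter'
      (Has.last' a)).mono (Nat.zero_le _))) (((DetI.const (g a)).add hD) M hM u)
  refine ((Has.iUnion' h).or' (((has_noHit δ i).mono (Nat.zero_le _)).inter'
    (Has.const' (((0 : ℤ) : ZMod M) = u)))).of_iff fun w => ?_
  simp only [mem_mk]
  constructor
  · rintro (⟨a, x, t, ⟨hx, y, rfl⟩, e, rfl⟩ | ⟨h, e⟩)
    · rw [hG y a t hx]; exact e
    · rw [ht w h]; exact e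
  · intro e
    by_cases hh : NoHit δ i w
    · exact Or.inr ⟨hh, ht w hh ▸ e⟩
    · rw [NoHit, not_not] at hh
      obtain ⟨x, t, hx, rfl⟩ := hh
      obtain ⟨y, a, rfl⟩ := (List.eq_nil_or_concat x).resolve_left hx.1
      rw [List.concat_eq_append] at hx e ⊢
      exact Or.inl ⟨a, y ++ [a], t, ⟨hx, y, rfl⟩, hG y a t hx ▸ e, rfl⟩

variable [DecidableEq α] (c : α)

lemma detI_head? [Fintype α] : DetI fun w : List α => if w.head? = some c then 1 else 0 :=
  detI_indicator (((Has.head' c).mono (Nat.zero_le _)).of_iff fun w => by cases w <;> simp)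

/-- The number of occurrences of a letter. -/
lemma detI_letter [Fintype α] : DetI fun w : List α => (w.count c : ℤ) := by
  refine detI_count (B := mk fun b => ∃ u v, (∀ x ∈ u, x ≠ c) ∧ v = [c] ∧ b = u ++ v)
    ((has_all fun x => x ≠ c).concat' (Has.single' c)) ?_ ?_ ?_
  · rintro ⟨u, v, -, rfl, e⟩
    simp at e
  · rintro b ⟨u, v, hu, rfl, rfl⟩ t
    simp [List.count_eq_zero.2 fun h => hu c h rfl, add_comm]
  · intro t ht
    have hfirst : ∀ w : List α, c ∈ w →
        ∃ u r, (∀ x ∈ u, x ≠ c) ∧ w = u ++ c :: r := by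
      intro w
      induction w with
      | nil => simp
      | cons a w ih =>
        intro h
        by_cases hac : a = c
        · exact ⟨[], w, by simp, by simp [hac]⟩
        · obtain ⟨u, r, hu, e⟩ := ih (by simpa [Ne.symm hac] using h)
          exact ⟨a :: u, r, by simpa [hac] using hu, by simp [e]⟩
    have : c ∉ t := fun h => by
      obtain ⟨u, r, hu, e⟩ := hfirst t h
      exact ht ⟨u ++ [c], r, ⟨u, [c], hu, rfl, rfl⟩, by simp [e]⟩
    simp [List.count_eq_zero.2 this]

/-- Departures minus arrivals, for occurrences of `c`. -/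
def net (i : ZMod p) (w : List α) : ℤ := dep δ c i w - dep δ c (i + δ c) w

lemma detI_net_zero [Fintype α] : DetI (net δ c 0) := by
  have hP : ∀ x, (decide (x = c)) = true → (!decide (x = c)) = true → δ x = 0 := by simp
  have h1 := detI_run δ (P := fun x => decide (x = c)) (Q := fun x => !decide (x = c)) hP
  have h2 := detI_run δ (P := fun x => !decide (x = c)) (Q := fun x => decide (x = c))
    (fun x h h' => hP x h' h)
  refine detI_block δ (h2.sub h1) (detI_head? c) (fun b hb t => ?_) fun t ht => ?_
  · simp only [net]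
    have e := dep_shift_head δ c b 0 t hb
    rw [zero_add] at e ⊢
    rw [e, dep_head δ c b 0 t hb, run_head δ _ b 0 [] t hb, run_head δ _ b 0 [] t hb,
      List.nil_append]
    obtain ⟨z, hz⟩ : ∃ z, b.head? = some z := ⟨_, List.head?_eq_some_head hb.1⟩
    obtain ⟨a, ha⟩ : ∃ a, b.getLast? = some a := ⟨_, List.getLast?_eq_some_getLast hb.1⟩
    by_cases hac : a = c <;> by_cases hzc : z = c <;> simp [rect, hz, ha, hac, hzc] <;> ring
  · simp only [net]
    have e := dep_shift_tail δ c t 0 ht
    rw [zero_add] at e ⊢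
    rw [e, dep_tail δ c t 0 ht, run_tail δ _ t 0 [] ht, run_tail δ _ t 0 [] ht]
    simp

lemma detI_net [Fintype α] (i : ZMod p) : DetI (net δ c i) := by
  rcases eq_or_ne i 0 with rfl | hi
  · exact detI_net_zero δ c
  refine detI_from δ i (fun a => if a = c then -1 else 0) (detI_net_zero δ c) (fun x a t hx => ?_)
    fun t ht => ?_
  · simp only [net, dep_head δ c _ i t hx, dep_shift_head δ c _ i t hx, zero_add]
    by_cases ha : a = c <;> simp [hi, ha] <;> ring
  · simp [net, dep_tail δ c t i ht, dep_shift_tail δ c t i ht, hi]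

lemma sum_dep : ∀ w : List α, ∑ j : ZMod p, dep δ c j w = w.count c
  | [] => by simp [dep]
  | a :: w => by
    simp only [dep, sum_add_distrib]
    have e := Equiv.sum_comp (Equiv.addRight (δ a)) fun j => dep δ c j w
    simp only [Equiv.coe_addRight] at e
    rw [e, sum_dep w]
    by_cases ha : a = c <;> simp [ha, add_comm]

/-- The departures of a letter from a state are determined at star height one. -/
theorem detI_dep [Fintype α] (i : ZMod p) : DetI (dep δ c i) := by
  classical
  by_cases hc : δ c = 0
  · have hall := detI_run δ (P := fun _ => false) (Q := fun _ => false) (by simp)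
    have hnot := detI_run δ (P := fun x => decide (x = c)) (Q := fun x => decide (x = c))
      (fun x h _ => by simp at h; rw [h, hc])
    have h0 : DetI (dep δ c 0) := by
      refine detI_block δ (hall.sub hnot) (detI_head? c) (fun b hb t => ?_) fun t ht => ?_
      · rw [dep_head δ c b 0 t hb, run_head δ _ b 0 [] t hb, run_head δ _ b 0 [] t hb,
          List.nil_append]
        obtain ⟨a, y, rfl⟩ : ∃ a y, b = a :: y := List.exists_cons_of_ne_nil hb.1
        by_cases ha : a = c
        · obtain rfl : y = [] := ((head_cons δ 0 a y).1 hb).elim (·.1)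
            fun h => absurd (by rw [ha, hc, add_zero]) h.1
          simp [rect, ha]
          ring
        · simp [rect, ha]
      · rw [dep_tail δ c t 0 ht, run_tail δ _ t 0 [] ht, run_tail δ _ t 0 [] ht]
        simp
    rcases eq_or_ne i 0 with rfl | hi
    · exact h0
    refine detI_from δ i (fun _ => 0) h0 (fun x a t hx => ?_) fun t ht => ?_
    · rw [dep_head δ c _ i t hx]; simp [hi]
    · simp [dep_tail δ c t i ht, hi]
  · refine DetI.of_mul (c := (p : ℤ)) (by exact_mod_cast (Fact.out : p.Prime).ne_zero) ?_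
    refine ((detI_letter c).add (DetI.sum (range p) fun k _ =>
      DetI.sum (range k) fun l _ => detI_net δ c (i + (l : ZMod p) * δ c))).congr fun w => ?_
    have htel : ∀ k : ℕ, ∑ l ∈ range k, net δ c (i + (l : ZMod p) * δ c) w
        = dep δ c i w - dep δ c (i + (k : ZMod p) * δ c) w := by
      intro k
      induction k with
      | zero => simp
      | succ k ih =>
        rw [sum_range_succ, ih, net]
        push_cast
        rw [add_one_mul, ← add_assoc]
        ring
    have hsum : ∑ k ∈ range p, dep δ c (i + (k : ZMod p) * δ c) w = w.count c := by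
      rw [← sum_dep δ c w]
      refine sum_bij' (fun k _ => i + (k : ZMod p) * δ c) (fun j _ => ((j - i) / δ c).val)
        (fun _ _ => mem_univ _) (fun j _ => mem_range.2 (ZMod.val_lt _)) ?_ ?_ fun _ _ => rfl
      · intro k hk
        simp [hc, ZMod.val_natCast, Nat.mod_eq_of_lt (mem_range.1 hk)]
      · intro j _
        simp [div_mul_cancel₀ _ hc]
    simp only [htel, sum_sub_distrib, sum_const, card_range, hsum, nsmul_eq_mul]
    ring

end Vale.Agent.P329
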