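import Mathlib

/-! P329: generalized regular expressions, star height, and closure properties. -/

namespace Vale.Agent.P329

open scoped Computability

/-- Generalized regular expressions over the alphabet `α`. -/
inductive Expr (α : Type) : Type where
  | empty : Expr α
  | eps : Expr α
  | letter : α → Expr α
  | add : Expr α → Expr α → Expr α
  | mul : Expr α → Expr α → Expr α
  | compl : Expr α → Expr α
  | star : Expr α → Expr α

variable {α : Type}

/-- Star height: complement does not count, a star adds one. -/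
def Expr.height : Expr α → ℕ
  | .empty => 0
  | .eps => 0
  | .letter _ => 0
  | .add P Q => max P.height Q.height
  | .mul P Q => max P.height Q.height
  | .compl P => P.height
  | .star P => P.height + 1

/-- The language denoted; complements are taken among all words. -/
def Expr.lang : Expr α → Language α
  | .empty => 0
  | .eps => 1
  | .letter a => ({[a]} : Set (List α))
  | .add P Q => P.lang + Q.lang
  | .mul P Q => P.lang * Q.lang
  | .compl P => P.langᶜ
  | .star P => P.lang∗

/-- `L` is denoted by an expression of star height at most `k`. -/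
def Has (k : ℕ) (L : Language α) : Prop := ∃ E : Expr α, E.height ≤ k ∧ E.lang = L

/-- The language of the words satisfying `P`. -/
def mk (P : List α → Prop) : Language α := {w | P w}

@[simp] lemma mem_mk {P : List α → Prop} {w : List α} : w ∈ mk P ↔ P w := Iff.rfl

namespace Has

variable {k : ℕ} {L M : Language α}

lemma mono {k'} (h : Has k L) (hk : k ≤ k') : Has k' L :=
  let ⟨E, h1, h2⟩ := h
  ⟨E, h1.trans hk, h2⟩

lemma zero : Has k (0 : Language α) := ⟨.empty, Nat.zero_le _, rfl⟩

lemma one : Has k (1 : Language α) := ⟨.eps, Nat.zero_le _, rfl⟩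

lemma letter (a : α) : Has k (({[a]} : Set (List α)) : Language α) :=
  ⟨.letter a, Nat.zero_le _, rfl⟩

lemma add (h : Has k L) (h' : Has k M) : Has k (L + M) :=
  let ⟨E, h1, h2⟩ := h
  let ⟨E', h1', h2'⟩ := h'
  ⟨.add E E', max_le h1 h1', by rw [← h2, ← h2']; rfl⟩

lemma mul (h : Has k L) (h' : Has k M) : Has k (L * M) :=
  let ⟨E, h1, h2⟩ := h
  let ⟨E', h1', h2'⟩ := h'
  ⟨.mul E E', max_le h1 h1', by rw [← h2, ← h2']; rfl⟩

lemma compl (h : Has k L) : Has k Lᶜ :=
  let ⟨E, h1, h2⟩ := h
  ⟨.compl E, h1, by rw [← h2]; rfl⟩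

lemma star (h : Has k L) : Has (k + 1) L∗ :=
  let ⟨E, h1, h2⟩ := h
  ⟨.star E, Nat.succ_le_succ h1, by rw [← h2]; rfl⟩

lemma pow (h : Has k L) : ∀ n, Has k (L ^ n)
  | 0 => by rw [pow_zero]; exact one
  | n + 1 => by rw [pow_succ]; exact (pow h n).mul h

lemma sum {ι : Type*} {f : ι → Language α} (s : Finset ι) (h : ∀ i ∈ s, Has k (f i)) :
    Has k (∑ i ∈ s, f i) := by
  classical
  induction s using Finset.induction_on with
  | empty => simpa using (zero : Has k (0 : Language α))
  | insert a s ha ih =>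
    rw [Finset.sum_insert ha]
    exact (h a (Finset.mem_insert_self a s)).add
      (ih fun i hi => h i (Finset.mem_insert_of_mem hi))

lemma of_iff (h : Has k L) (e : ∀ w, w ∈ L ↔ w ∈ M) : Has k M := Language.ext e ▸ h

end Has

lemma mem_sum {ι : Type*} {f : ι → Language α} (s : Finset ι) (w : List α) :
    w ∈ ∑ i ∈ s, f i ↔ ∃ i ∈ s, w ∈ f i := by
  classical
  induction s using Finset.induction_on with
  | empty => simp [Language.notMem_zero]
  | insert a s ha ih => rw [Finset.sum_insert ha, Language.mem_add, ih]; simp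

lemma mem_compl (L : Language α) (w : List α) : w ∈ Lᶜ ↔ w ∉ L := Iff.rfl

namespace Has

variable {k : ℕ}

lemma inter' {P Q : List α → Prop} (h : Has k (mk P)) (h' : Has k (mk Q)) :
    Has k (mk fun w => P w ∧ Q w) :=
  (h.compl.add h'.compl).compl.of_iff fun w => by
    rw [mem_compl, Language.mem_add, mem_compl, mem_compl, mem_mk, mem_mk, mem_mk]
    tauto

lemma not' {P : List α → Prop} (h : Has k (mk P)) : Has k (mk fun w => ¬ P w) :=
  h.compl.of_iff fun w => by rw [mem_compl, mem_mk, mem_mk]

lemma or' {P Q : List α → Prop} (h : Has k (mk P)) (h' : Has k (mk Q)) :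
    Has k (mk fun w => P w ∨ Q w) :=
  (h.add h').of_iff fun w => by rw [Language.mem_add, mem_mk, mem_mk, mem_mk]

lemma iUnion' {ι : Type*} [Fintype ι] {P : ι → List α → Prop} (h : ∀ i, Has k (mk (P i))) :
    Has k (mk fun w => ∃ i, P i w) :=
  (Has.sum Finset.univ fun i _ => h i).of_iff fun w => by simp [mem_sum]

lemma true' : Has k (mk fun _ : List α => True) :=
  (Has.zero.compl).of_iff fun w => by simp [mem_compl, Language.notMem_zero]

lemma false' : Has k (mk fun _ : List α => False) :=
  Has.zero.of_iff fun w => by simp [Language.notMem_zero]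

lemma const' (p : Prop) : Has k (mk fun _ : List α => p) := by
  by_cases hp : p
  · exact true'.of_iff fun w => by simp [hp]
  · exact false'.of_iff fun w => by simp [hp]

lemma nil' : Has k (mk fun w : List α => w = []) :=
  Has.one.of_iff fun w => by simp [Language.mem_one]

lemma single' (a : α) : Has k (mk fun w : List α => w = [a]) :=
  (Has.letter a).of_iff fun _ => Iff.rfl

lemma concat' {P Q : List α → Prop} (h : Has k (mk P)) (h' : Has k (mk Q)) :
    Has k (mk fun w => ∃ u v, P u ∧ Q v ∧ w = u ++ v) :=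
  (h.mul h').of_iff fun w => by
    rw [Language.mem_mul, mem_mk]
    exact ⟨fun ⟨u, hu, v, hv, e⟩ => ⟨u, v, hu, hv, e.symm⟩,
      fun ⟨u, v, hu, hv, e⟩ => ⟨u, hu, v, hv, e.symm⟩⟩

lemma head' (a : α) : Has k (mk fun w : List α => ∃ t, w = a :: t) :=
  ((single' a).concat' true').of_iff fun w => by
    simp only [mem_mk]
    constructor
    · rintro ⟨u, v, rfl, -, rfl⟩
      exact ⟨v, rfl⟩
    · rintro ⟨t, rfl⟩
      exact ⟨[a], t, rfl, trivial, rfl⟩

lemma last' (a : α) : Has k (mk fun w : List α => ∃ t, w = t ++ [a]) :=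
  (true'.concat' (single' a)).of_iff fun w => by
    simp only [mem_mk]
    constructor
    · rintro ⟨u, v, -, rfl, rfl⟩
      exact ⟨u, rfl⟩
    · rintro ⟨t, rfl⟩
      exact ⟨t, [a], trivial, rfl, rfl⟩

end Has

/-- Every value of `F` is taken on a language of star height at most one. -/
def Det {β : Type*} (F : List α → β) : Prop := ∀ u, Has 1 (mk fun w => F w = u)

lemma Det.comp {β γ : Type*} [Finite β] {F : List α → β} (h : Det F) (g : β → γ) :
    Det fun w => g (F w) := by
  classical
  cases nonempty_fintype β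
  intro v
  exact (Has.iUnion' (P := fun (u : β) w => g u = v ∧ F w = u) fun u =>
    (Has.const' (g u = v)).inter' (h u)).of_iff fun w => by simp

lemma Det.prod {β γ : Type*} {F : List α → β} {G : List α → γ} (h : Det F) (h' : Det G) :
    Det fun w => (F w, G w) :=
  fun u => ((h u.1).inter' (h' u.2)).of_iff fun w => by simp [Prod.ext_iff]

lemma Det.const {β : Type*} (c : β) : Det fun _ : List α => c := fun _ => Has.const' _

lemma Det.pi {ι β : Type*} [Fintype ι] {F : ι → List α → β} (h : ∀ i, Det (F i)) :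
    Det fun w i => F i w := by
  intro u
  exact ((Has.iUnion' (P := fun (i : ι) w => ¬ F i w = u i) fun i => (h i (u i)).not').not').of_iff
    fun w => by simp [funext_iff]

/-- An integer statistic is determined modulo every positive integer at star height one. -/
def DetI (F : List α → ℤ) : Prop := ∀ M : ℕ, 0 < M → Det fun w => (F w : ZMod M)

namespace DetI

variable {F G : List α → ℤ}

lemma congr (h : DetI F) (e : ∀ w, F w = G w) : DetI G := by
  have : F = G := funext e
  rwa [← this]

lemma const (c : ℤ) : DetI fun _ : List α => c := fun _ _ => Det.const _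

lemma add (h : DetI F) (h' : DetI G) : DetI fun w => F w + G w := by
  intro M hM
  have : NeZero M := ⟨hM.ne'⟩
  have := ((h M hM).prod (h' M hM)).comp fun p => p.1 + p.2
  simpa [Int.cast_add] using this

lemma smul (h : DetI F) (c : ℤ) : DetI fun w => c * F w := by
  intro M hM
  have : NeZero M := ⟨hM.ne'⟩
  have := (h M hM).comp fun x => (c : ZMod M) * x
  simpa [Int.cast_mul] using this

lemma sub (h : DetI F) (h' : DetI G) : DetI fun w => F w - G w :=
  (h.add (h'.smul (-1))).congr fun w => by ring

lemma sum {ι : Type*} (s : Finset ι) {H : ι → List α → ℤ} (h : ∀ i ∈ s, DetI (H i)) :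
    DetI fun w => ∑ i ∈ s, H i w := by
  classical
  induction s using Finset.induction_on with
  | empty => simpa using DetI.const 0
  | insert a s ha ih =>
    exact ((h a (Finset.mem_insert_self a s)).add
      (ih fun i hi => h i (Finset.mem_insert_of_mem hi))).congr fun w => by
        rw [Finset.sum_insert ha]

/-- One may divide by a nonzero integer. -/
lemma of_mul {c : ℤ} (hc : c ≠ 0) (h : DetI fun w => c * F w) : DetI F := by
  intro M hM
  classical
  have hM' : 0 < c.natAbs * M := Nat.mul_pos (Int.natAbs_pos.2 hc) hM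
  have : NeZero (c.natAbs * M) := ⟨hM'.ne'⟩
  let g : ZMod (c.natAbs * M) → ZMod M := fun u =>
    if hu : ∃ x : ℤ, ((c * x : ℤ) : ZMod (c.natAbs * M)) = u then (hu.choose : ZMod M) else 0
  have hg : ∀ x : ℤ, g ((c * x : ℤ) : ZMod (c.natAbs * M)) = (x : ZMod M) := by
    intro x
    have hu : ∃ y : ℤ, ((c * y : ℤ) : ZMod (c.natAbs * M)) = ((c * x : ℤ) : ZMod (c.natAbs * M)) :=
      ⟨x, rfl⟩
    simp only [g, dif_pos hu]
    have h1 := (ZMod.intCast_eq_intCast_iff_dvd_sub _ _ _).1 hu.choose_spec
    rw [Nat.cast_mul, ← mul_sub] at h1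
    rw [ZMod.intCast_eq_intCast_iff_dvd_sub]
    have h2 : c * (M : ℤ) ∣ c * (x - hu.choose) := by
      refine dvd_trans ?_ h1
      exact mul_dvd_mul_right (Int.dvd_natAbs.2 dvd_rfl) _
    exact (mul_dvd_mul_iff_left hc).1 h2
  have := (h _ hM').comp g
  intro u
  exact (this u).of_iff fun w => by simp only [mem_mk, hg]

end DetI

lemma detI_indicator {P : List α → Prop} [DecidablePred P] (h : Has 1 (mk P)) :
    DetI fun w => if P w then 1 else 0 := by
  intro M _ u
  exact ((h.inter' (Has.const' ((1 : ZMod M) = u))).or'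
    (h.not'.inter' (Has.const' ((0 : ZMod M) = u)))).of_iff fun w => by
      by_cases hw : P w <;> simp [hw]

/-- Greedy decomposition along a set `B` of nonempty words. -/
lemma exists_parse {B : Language α} (hB : [] ∉ B) (w : List α) :
    ∃ (k : ℕ) (u t : List α), u ∈ B ^ k ∧ w = u ++ t ∧
      ¬ ∃ b r, b ∈ B ∧ t = b ++ r := by
  by_cases h : ∃ b r, b ∈ B ∧ w = b ++ r
  · obtain ⟨b, r, hb, rfl⟩ := h
    have hlen : r.length < (b ++ r).length := by
      have : b ≠ [] := fun e => hB (e ▸ hb)
      have := List.length_pos_iff.2 this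
      simp only [List.length_append]
      omega
    obtain ⟨k, u, t, hu, e, ht⟩ := exists_parse hB r
    refine ⟨k + 1, b ++ u, t, ?_, ?_, ht⟩
    · rw [pow_succ']
      exact Language.append_mem_mul hb hu
    · rw [e, List.append_assoc]
  · exact ⟨0, [], w, by simp [Language.mem_one], rfl, h⟩
  termination_by w.length

lemma value_of_parse {B : Language α} {F : List α → ℤ} {c : ℤ}
    (hb : ∀ b ∈ B, ∀ t, F (b ++ t) = c + F t) :
    ∀ (k : ℕ) (u : List α), u ∈ B ^ k → ∀ t, F (u ++ t) = k * c + F t
  | 0, u, hu, t => by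
    rw [pow_zero, Language.mem_one] at hu
    simp [hu]
  | k + 1, u, hu, t => by
    rw [pow_succ', Language.mem_mul] at hu
    obtain ⟨b, hb', v, hv, rfl⟩ := hu
    rw [List.append_assoc, hb b hb', value_of_parse hb k v hv t]
    push_cast
    ring

lemma has_tail {k : ℕ} {B : Language α} (h : Has k B) :
    Has k (mk fun t => ¬ ∃ b r, b ∈ B ∧ t = b ++ r) :=
  ((h.concat' (P := fun b => b ∈ B) Has.true').of_iff fun w => by simp).not'

/-- Counting the factors of the greedy decomposition along a star-free code. -/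
lemma detI_count {B : Language α} {F : List α → ℤ} (hB : Has 0 B) (hne : [] ∉ B)
    (hb : ∀ b ∈ B, ∀ t, F (b ++ t) = 1 + F t)
    (ht : ∀ t, (¬ ∃ b r, b ∈ B ∧ t = b ++ r) → F t = 0) : DetI F := by
  intro M hM u
  have : NeZero M := ⟨hM.ne'⟩
  have hstar : Has 1 (B ^ M)∗ := (hB.pow M).star
  have hhead : Has 1 (B ^ u.val * (B ^ M)∗) := ((hB.pow _).mono (Nat.zero_le _)).mul hstar
  refine (Has.concat' (P := fun x => x ∈ B ^ u.val * (B ^ M)∗) (hhead.of_iff fun _ => Iff.rfl)
    ((has_tail hB).mono (Nat.zero_le _))).of_iff fun w => ?_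
  simp only [mem_mk]
  constructor
  · rintro ⟨x, t, hx, htail, rfl⟩
    obtain ⟨y, hy, z, hz, rfl⟩ := Language.mem_mul.1 hx
    rw [Language.kstar_eq_iSup_pow, Language.mem_iSup] at hz
    obtain ⟨q, hq⟩ := hz
    rw [← pow_mul] at hq
    rw [List.append_assoc, value_of_parse hb _ y hy, value_of_parse hb _ z hq, ht t htail]
    push_cast
    simp
  · intro hw
    obtain ⟨k, x, t, hx, rfl, htail⟩ := exists_parse hne w
    refine ⟨x, t, ?_, htail, rfl⟩
    rw [value_of_parse hb k x hx, ht t htail] at hw
    have hk : u.val = k % M := by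
      rw [← hw]
      simp [ZMod.val_natCast]
    rw [← Nat.mod_add_div k M, pow_add, ← hk, pow_mul] at hx
    obtain ⟨y, hy, z, hz, rfl⟩ := Language.mem_mul.1 hx
    refine Language.append_mem_mul hy ?_
    rw [Language.kstar_eq_iSup_pow, Language.mem_iSup]
    exact ⟨_, hz⟩

/-- The value left on the last piece of the greedy decomposition. -/
lemma has_of_parse {B : Language α} {P : List α → Prop} (hB : Has 0 B) (hne : [] ∉ B)
    (hb : ∀ b ∈ B, ∀ t, (P (b ++ t) ↔ P t))
    (hP : Has 1 (mk fun t => (¬ ∃ b r, b ∈ B ∧ t = b ++ r) ∧ P t)) : Has 1 (mk P) := by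
  have hinv : ∀ (k : ℕ) (u : List α), u ∈ B ^ k → ∀ t, (P (u ++ t) ↔ P t) := by
    intro k
    induction k with
    | zero =>
      intro u hu t
      rw [pow_zero, Language.mem_one] at hu
      simp [hu]
    | succ k ih =>
      intro u hu t
      rw [pow_succ', Language.mem_mul] at hu
      obtain ⟨b, hb', v, hv, rfl⟩ := hu
      rw [List.append_assoc, hb b hb', ih v hv t]
  refine (Has.concat' (P := fun x => x ∈ B∗) (hB.star.of_iff fun _ => Iff.rfl) hP).of_iff
    fun w => ?_
  simp only [mem_mk]
  constructor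
  · rintro ⟨x, t, hx, ⟨-, hPt⟩, rfl⟩
    rw [Language.kstar_eq_iSup_pow, Language.mem_iSup] at hx
    obtain ⟨k, hk⟩ := hx
    exact (hinv k x hk t).2 hPt
  · intro hw
    obtain ⟨k, x, t, hx, rfl, htail⟩ := exists_parse hne w
    refine ⟨x, t, ?_, ⟨htail, (hinv k x hx t).1 hw⟩, rfl⟩
    rw [Language.kstar_eq_iSup_pow, Language.mem_iSup]
    exact ⟨k, hx⟩

end Vale.Agent.P329
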