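import Vale.Agent.P329.Count

/-! P329: abelian by elementary abelian groups. -/

namespace Vale.Agent.P329

open Finset

section Space

variable {α V : Type} [AddCommGroup V] (π : α → V)

/-- Occurrences of `c` whose prefix, read from `q`, arrives at `v`. -/
def cnt [DecidableEq α] [DecidableEq V] (v : V) (c : α) : V → List α → ℤ
  | _, [] => 0
  | q, a :: w => (if q = v ∧ a = c then 1 else 0) + cnt v c (q + π a) w

lemma card_dual_zero {p : ℕ} [Fact p.Prime] [Module (ZMod p) V] [Fintype (Module.Dual (ZMod p) V)] [DecidableEq V] (x : V) :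
    (p : ℤ) * ∑ f : Module.Dual (ZMod p) V, (if f x = 0 then 1 else 0 : ℤ) =
      if x = 0 then (p : ℤ) * Fintype.card (Module.Dual (ZMod p) V)
      else (Fintype.card (Module.Dual (ZMod p) V) : ℤ) := by
  by_cases hx : x = 0
  · simp [hx]
  rw [if_neg hx]
  obtain ⟨f, hf⟩ := Module.Projective.exists_dual_ne_zero (ZMod p) hx
  let g := (f x)⁻¹ • f
  have hg : g x = 1 := by simp [g, hf]
  have hk : ∀ k : ZMod p, (univ.filter fun h : Module.Dual (ZMod p) V => h x = k).card =
      (univ.filter fun h : Module.Dual (ZMod p) V => h x = 0).card := fun k =>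
    card_equiv (Equiv.subRight (k • g)) fun h => by simp [hg, sub_eq_zero]
  have h := card_eq_sum_card_fiberwise (f := fun h : Module.Dual (ZMod p) V => h x)
    (s := univ) (t := univ) fun _ _ => mem_univ _
  simp only [hk, sum_const, card_univ, ZMod.card, smul_eq_mul] at h
  rw [sum_boole, h]
  push_cast
  ring

/-- The occurrences of a letter after a given value in an elementary abelian group. -/
theorem detI_cnt (p : ℕ) [Fact p.Prime] [Module (ZMod p) V] [Fintype α] [DecidableEq α] [Finite V] [DecidableEq V] (v : V) (c : α) (q : V) :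
    DetI (cnt π v c q) := by
  have : Finite (Module.Dual (ZMod p) V) := Finite.of_injective _ DFunLike.coe_injective
  let _ : Fintype (Module.Dual (ZMod p) V) := Fintype.ofFinite _
  have hp : (1 : ℤ) < p := by exact_mod_cast (Fact.out : p.Prime).one_lt
  have hD : (0 : ℤ) < Fintype.card (Module.Dual (ZMod p) V) := by exact_mod_cast Fintype.card_pos
  have key : ∀ (w : List α) (q : V),
      (p : ℤ) * ∑ f : Module.Dual (ZMod p) V, dep (fun a => f (π a)) c (f (q - v)) w
        - Fintype.card (Module.Dual (ZMod p) V) * (w.count c : ℤ) =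
      ((p : ℤ) - 1) * Fintype.card (Module.Dual (ZMod p) V) * cnt π v c q w := by
    intro w
    induction w with
    | nil => simp [dep, cnt]
    | cons a w ih =>
      intro q
      have e : ∀ f : Module.Dual (ZMod p) V, f (q - v) + f (π a) = f (q + π a - v) := fun f => by
        rw [← map_add]; congr 1; abel
      simp only [dep, cnt, e, sum_add_distrib, mul_add]
      rw [← ih (q + π a)]
      by_cases hac : a = c
      · subst hac
        simp only [and_true, card_dual_zero, sub_eq_zero, List.count_cons_self, Nat.cast_succ]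
        split <;> ring
      · simp [hac]
  refine DetI.of_mul (c := ((p : ℤ) - 1) * Fintype.card (Module.Dual (ZMod p) V))
    (mul_ne_zero (by omega) hD.ne') ?_
  refine ((DetI.sum univ fun f _ => detI_dep (fun a => f (π a)) c (f (q - v))).smul p |>.sub
    ((detI_letter c).smul (Fintype.card (Module.Dual (ZMod p) V)))).congr fun w => key w q

/-- The value of a word in an elementary abelian group. -/
lemma det_sum (p : ℕ) [Fact p.Prime] [Module (ZMod p) V] [Fintype α] [Finite V] : Det fun w : List α => (w.map π).sum := by
  classical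
  have : NeZero p := ⟨(Fact.out : p.Prime).ne_zero⟩
  have h := (Det.pi fun a : α => detI_letter a p (NeZero.pos p)).comp
    fun u : α → ZMod p => ∑ a, u a • π a
  intro x
  refine (h x).of_iff fun w => ?_
  simp only [mem_mk, Int.cast_natCast]
  suffices ∑ a, ((w.count a : ℕ) : ZMod p) • π a = (w.map π).sum by rw [this]
  induction w with
  | nil => simp
  | cons b w ih =>
    simp only [List.count_cons, List.map_cons, List.sum_cons, Nat.cast_add, add_smul,
      sum_add_distrib, ih]
    simp [add_comm]

end Space

variable {α : Type} [Fintype α] {G : Type} [Group G] [Finite G]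

/-- The value of a word in an abelian by elementary abelian group. -/
theorem det_prod {p : ℕ} [Fact p.Prime] (N : Subgroup G) [N.Normal]
    (hab : ∀ x ∈ N, ∀ y ∈ N, x * y = y * x) (hpow : ∀ g : G, g ^ p ∈ N)
    (hcomm : ∀ g h : G, g * h * g⁻¹ * h⁻¹ ∈ N) (φ : α → G) :
    Det fun w : List α => (w.map φ).prod := by
  classical
  let _ : CommGroup (G ⧸ N) :=
    { (inferInstance : Group (G ⧸ N)) with
      mul_comm := fun x y => by
        induction x using QuotientGroup.induction_on with
        | _ g =>
          induction y using QuotientGroup.induction_on with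
          | _ h =>
            have := (QuotientGroup.eq_one_iff _).2 (hcomm g h)
            simp only [QuotientGroup.mk_mul, QuotientGroup.mk_inv] at this
            rwa [mul_inv_eq_one, mul_inv_eq_iff_eq_mul] at this }
  let _ : Module (ZMod p) (Additive (G ⧸ N)) := AddCommGroup.zmodModule fun x => by
    obtain ⟨g, hg⟩ := QuotientGroup.mk_surjective x.toMul
    apply Additive.toMul.injective
    rw [toMul_nsmul, ← hg, toMul_zero, ← QuotientGroup.mk_pow]
    exact (QuotientGroup.eq_one_iff _).2 (hpow g)
  let _ : CommGroup N :=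
    { (inferInstance : Group N) with mul_comm := fun x y => Subtype.ext (hab _ x.2 _ y.2) }
  let _ : Fintype (Additive (G ⧸ N)) := Fintype.ofFinite _
  let σ : Additive (G ⧸ N) → G := fun v => v.toMul.out
  let π : α → Additive (G ⧸ N) := fun a => Additive.ofMul (φ a : G ⧸ N)
  let f : Additive (G ⧸ N) × α → N := fun z =>
    ⟨σ z.1 * φ z.2 * (σ (z.1 + π z.2))⁻¹, by
      rw [← QuotientGroup.eq_one_iff]
      simp [σ, π]⟩
  have hval : ∀ (w : List α) (q : Additive (G ⧸ N)), σ q * (w.map φ).prod =
      (↑(∏ z, f z ^ cnt π z.1 z.2 q w) : G) * σ (q + (w.map π).sum) := by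
    intro w
    induction w with
    | nil => intro q; simp [cnt]
    | cons a w ih =>
      intro q
      have hstep : ∏ z, f z ^ cnt π z.1 z.2 q (a :: w) =
          f (q, a) * ∏ z, f z ^ cnt π z.1 z.2 (q + π a) w := by
        simp only [cnt, zpow_add, prod_mul_distrib]
        congr 1
        rw [prod_eq_single (q, a)]
        · simp
        · rintro ⟨v, c⟩ - hne
          rw [if_neg, zpow_zero]
          rintro ⟨rfl, rfl⟩
          exact hne rfl
        · simp
      rw [List.map_cons, List.prod_cons, List.map_cons, List.sum_cons, ← add_assoc, hstep,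
        Subgroup.coe_mul, mul_assoc (f (q, a) : G), ← ih (q + π a)]
      simp [f, mul_assoc]
  have hM : 0 < Nat.card G := Nat.card_pos
  have : NeZero (Nat.card G) := ⟨hM.ne'⟩
  have hz : ∀ (x : N) (k : ℤ), x ^ k = x ^ ((k : ZMod (Nat.card G)).val : ℤ) := by
    intro x k
    have h1 : x ^ (Nat.card G : ℤ) = 1 := Subtype.ext (by simp)
    rw [ZMod.val_intCast]
    conv_lhs => rw [← Int.mul_ediv_add_emod k (Nat.card G)]
    rw [zpow_add, zpow_mul, h1, one_zpow, one_mul]
  have h := ((Det.pi fun z : Additive (G ⧸ N) × α =>
      detI_cnt π p z.1 z.2 0 (Nat.card G) hM).prod (det_sum π p)).comp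
    fun u => (σ 0)⁻¹ * (↑(∏ z, f z ^ ((u.1 z).val : ℤ)) : G) * σ u.2
  intro g
  refine (h g).of_iff fun w => ?_
  simp only [mem_mk]
  have e := hval w 0
  simp only [← hz]
  rw [zero_add] at e
  rw [mul_assoc, ← e, inv_mul_cancel_left]

end Vale.Agent.P329
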