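import Vale.Agent.P329.Expr

/-! P329: the walk of a word in `ZMod p` with a proper set of allowed states is star-free. -/

namespace Vale.Agent.P329

open Finset

variable {α : Type} {p : ℕ} (δ : α → ZMod p) (m : α → α → Bool)

/-- Sum of the increments along a word. -/
def wsum (w : List α) : ZMod p := (w.map δ).sum

@[simp] lemma wsum_nil : wsum δ ([] : List α) = 0 := rfl

@[simp] lemma wsum_cons (a : α) (w : List α) : wsum δ (a :: w) = δ a + wsum δ w := by
  simp [wsum]

@[simp] lemma wsum_append (u v : List α) : wsum δ (u ++ v) = wsum δ u + wsum δ v := by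
  simp [wsum]

/-- States at the marked interior boundaries of a word read from state `i`. -/
def mv : ZMod p → List α → Finset (ZMod p)
  | _, [] => ∅
  | _, [_] => ∅
  | i, a :: b :: w => (if m a b then {i + δ a} else ∅) ∪ mv (i + δ a) (b :: w)

lemma mv_cons_subset (i : ZMod p) (a : α) (w : List α) :
    mv δ m (i + δ a) w ⊆ mv δ m i (a :: w) := by
  cases w with
  | nil => simp [mv]
  | cons b w => exact subset_union_right

lemma mv_suffix (x y : List α) : ∀ i, mv δ m (i + wsum δ x) y ⊆ mv δ m i (x ++ y) := by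
  induction x with
  | nil => intro i; simp
  | cons a x ih =>
    intro i
    rw [wsum_cons, ← add_assoc]
    exact (ih (i + δ a)).trans (mv_cons_subset δ m i a _)

lemma mv_prefix (x y : List α) : ∀ i, mv δ m i x ⊆ mv δ m i (x ++ y) := by
  induction x with
  | nil => intro i; simp [mv]
  | cons a x ih =>
    intro i
    cases x with
    | nil => simp [mv]
    | cons b x =>
      simp only [List.cons_append, mv]
      exact union_subset_union subset_rfl (ih (i + δ a))

lemma mv_boundary (u : List α) (a b : α) (v : List α) (h : m a b) :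
    ∀ i, i + wsum δ (u ++ [a]) ∈ mv δ m i (u ++ a :: b :: v) := by
  induction u with
  | nil => intro i; simp [mv, h]
  | cons c u ih =>
    intro i
    refine mv_cons_subset δ m i c _ ?_
    have := ih (i + δ c)
    simpa [add_assoc] using this

lemma mv_shift (c : ZMod p) : ∀ (w : List α) (i : ZMod p),
    mv δ m (i + c) w = (mv δ m i w).image (· + c)
  | [], i => by simp [mv]
  | [a], i => by simp [mv]
  | a :: b :: w, i => by
    simp only [mv, image_union]
    rw [show i + c + δ a = i + δ a + c by ring, mv_shift c (b :: w) (i + δ a)]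
    split <;> simp

/-- A word with an unmarked start exiting `T` has a first exit. -/
lemma exists_exit (T : Finset (ZMod p)) :
    ∀ (w : List α) (i : ZMod p), ¬ mv δ m i w ⊆ T → ∃ u a b v, w = u ++ a :: b :: v ∧
      mv δ m i (u ++ [a]) ⊆ T ∧ m a b ∧ i + wsum δ (u ++ [a]) ∉ T
  | [], i, h => absurd (by simp [mv]) h
  | [a], i, h => absurd (by simp [mv]) h
  | a :: b :: w, i, h => by
    by_cases hh : m a b ∧ i + δ a ∉ T
    · exact ⟨[], a, b, w, rfl, by simp [mv], hh.1, by simpa using hh.2⟩
    · have hfirst : (if m a b then {i + δ a} else ∅ : Finset (ZMod p)) ⊆ T := by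
        split
        · rename_i hm
          simpa using not_and_not_right.1 hh hm
        · simp
      obtain ⟨u, a', b', v, e, h1, h2, h3⟩ := exists_exit T (b :: w) (i + δ a) fun hs =>
        h (union_subset hfirst hs)
      refine ⟨a :: u, a', b', v, by rw [e]; rfl, ?_, h2, by simpa [add_assoc] using h3⟩
      cases u with
      | nil =>
        simp only [List.nil_append, List.cons.injEq] at e
        obtain ⟨rfl, -⟩ := e
        simpa [mv] using hfirst
      | cons c u =>
        simp only [List.cons_append, List.cons.injEq] at e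
        obtain ⟨rfl, -⟩ := e
        simp only [List.cons_append, mv]
        exact union_subset hfirst h1

/-- A suffix that pins the state at its end to `j` inside `T`. -/
def Pin (T : Finset (ZMod p)) (j : ZMod p) (s : List α) : Prop :=
  ∃ (z : α × α × ZMod p × Finset (ZMod p)), z.2.2.2 ⊂ T ∧ m z.1 z.2.1 ∧
    insert z.2.2.1 z.2.2.2 = T ∧
    ∃ v, s = z.1 :: v ∧ (∃ t, v = z.2.1 :: t) ∧ mv δ m z.2.2.1 v = z.2.2.2 ∧
      z.2.2.1 + wsum δ v = j

lemma pin_exists {T : Finset (ZMod p)} (hne : T.Nonempty) :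
    ∀ (w : List α) (i : ZMod p), mv δ m i w = T →
      ∃ u s, w = u ++ s ∧ Pin δ m T (i + wsum δ w) s
  | [], i, h => absurd h.symm (by simpa [mv] using hne.ne_empty)
  | [a], i, h => absurd h.symm (by simpa [mv] using hne.ne_empty)
  | a :: b :: w, i, h => by
    by_cases h' : mv δ m (i + δ a) (b :: w) = T
    · obtain ⟨u, s, e, hs⟩ := pin_exists hne (b :: w) (i + δ a) h'
      exact ⟨a :: u, s, by rw [e]; rfl, by rwa [wsum_cons, ← add_assoc]⟩
    · have hsub : mv δ m (i + δ a) (b :: w) ⊆ T := h ▸ mv_cons_subset δ m i a _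
      have hm : m a b = true := by
        by_contra hc
        simp only [mv, hc, if_neg, not_false_eq_true, empty_union] at h
        exact h' h
      refine ⟨[], a :: b :: w, rfl, ⟨a, b, i + δ a, mv δ m (i + δ a) (b :: w)⟩,
        Finset.ssubset_iff_subset_ne.2 ⟨hsub, h'⟩, hm, ?_, b :: w, rfl, ⟨w, rfl⟩, rfl, ?_⟩
      · rw [← h]
        simp only [mv, hm, if_true]
        exact insert_eq _ _
      · simp [add_assoc]

lemma pin_sound {T : Finset (ZMod p)} {j : ZMod p} {s : List α} (h : Pin δ m T j s) :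
    ∃ c, mv δ m c s = T ∧ c + wsum δ s = j ∧ s ≠ [] := by
  obtain ⟨⟨a, b, k, T'⟩, -, hm, hins, v, rfl, ⟨t, rfl⟩, hv, hj⟩ := h
  refine ⟨k - δ a, ?_, ?_, by simp⟩
  · simp only [mv, hm, if_true, sub_add_cancel]
    rw [hv, ← insert_eq]
    exact hins
  · rw [← hj, wsum_cons]
    ring

variable [Fact p.Prime]

/-- A proper nonempty set of residues modulo a prime is moved by every nonzero translation. -/
lemma eq_of_translate {T : Finset (ZMod p)} (hne : T.Nonempty) (hT : T ≠ univ)
    {c c' : ZMod p} {s : List α} (h : mv δ m c s = T) (h' : mv δ m c' s ⊆ T) : c' = c := by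
  by_contra hcc
  have hd : c' - c ≠ 0 := sub_ne_zero.2 hcc
  have hclosed : ∀ x ∈ T, x + (c' - c) ∈ T := by
    intro x hx
    apply h'
    rw [show c' = c + (c' - c) by ring, mv_shift, h]
    exact mem_image.2 ⟨x, hx, by ring⟩
  obtain ⟨t, ht⟩ := hne
  have hmult : ∀ n : ℕ, t + (n : ZMod p) * (c' - c) ∈ T := by
    intro n
    induction n with
    | zero => simpa using ht
    | succ n ih =>
      have := hclosed _ ih
      push_cast
      rwa [add_one_mul, ← add_assoc]
  refine hT (eq_univ_of_forall fun x => ?_)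
  have := hmult ((x - t) / (c' - c)).val
  rwa [ZMod.natCast_val, ZMod.cast_id, div_mul_cancel₀ _ hd, add_sub_cancel] at this

/-- Words from `i` to `j` whose marked states lie in `T`. -/
def SW (T : Finset (ZMod p)) (i j : ZMod p) : Language α :=
  mk fun w => mv δ m i w ⊆ T ∧ i + wsum δ w = j

/-- The walk inside a proper set of residues is star-free, once the unmarked case is. -/
theorem sf_SW [Fintype α] (hbase : ∀ i j, Has 0 (SW δ m ∅ i j)) :
    ∀ T : Finset (ZMod p), T ≠ univ → ∀ i j, Has 0 (SW δ m T i j) := by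
  intro T
  induction T using Finset.strongInduction with
  | H T ih =>
    intro hT i j
    rcases T.eq_empty_or_nonempty with rfl | hne
    · exact hbase i j
    have hne_univ : ∀ T' ⊂ T, T' ≠ univ := fun T' h e =>
      h.not_subset (by rw [e]; exact subset_univ T)
    have hexact : ∀ T' ⊂ T, ∀ k l,
        Has 0 (mk fun w => mv δ m k w = T' ∧ k + wsum δ w = l) := by
      intro T' hT' k l
      refine (Has.inter' (ih T' hT' (hne_univ T' hT') k l)
        (Has.iUnion' (P := fun (S : {S // S ⊂ T'}) w => mv δ m k w ⊆ S.1 ∧ k + wsum δ w = l)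
          fun S => ih S.1 (S.2.trans hT') (hne_univ _ (S.2.trans hT')) k l).not').of_iff
        fun w => ?_
      simp only [mem_mk]
      constructor
      · rintro ⟨⟨h1, h2⟩, h3⟩
        refine ⟨?_, h2⟩
        by_contra hne'
        exact h3 ⟨⟨_, Finset.ssubset_iff_subset_ne.2 ⟨h1, hne'⟩⟩, subset_rfl, h2⟩
      · rintro ⟨h1, h2⟩
        refine ⟨⟨h1.subset, h2⟩, ?_⟩
        rintro ⟨⟨S, hS⟩, hw, -⟩
        exact hS.not_subset (h1 ▸ hw)
    have hpin : ∀ l, Has 0 (mk (Pin δ m T l)) := by
      intro l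
      refine (Has.iUnion'
        (P := fun (z : α × α × ZMod p × Finset (ZMod p)) s => z.2.2.2 ⊂ T ∧ m z.1 z.2.1 ∧
          insert z.2.2.1 z.2.2.2 = T ∧ ∃ v, s = z.1 :: v ∧ (∃ t, v = z.2.1 :: t) ∧
            mv δ m z.2.2.1 v = z.2.2.2 ∧ z.2.2.1 + wsum δ v = l) fun z => ?_).of_iff
        fun w => Iff.rfl
      by_cases hz : z.2.2.2 ⊂ T ∧ m z.1 z.2.1 ∧ insert z.2.2.1 z.2.2.2 = T
      · refine ((Has.single' z.1).concat'
          ((Has.head' z.2.1).inter' (hexact _ hz.1 z.2.2.1 l))).of_iff fun w => ?_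
        simp only [mem_mk]
        constructor
        · rintro ⟨u, v, rfl, ⟨hv, h1, h2⟩, rfl⟩
          exact ⟨hz.1, hz.2.1, hz.2.2, v, rfl, hv, h1, h2⟩
        · rintro ⟨-, -, -, v, rfl, hv, h1, h2⟩
          exact ⟨[z.1], v, rfl, ⟨hv, h1, h2⟩, rfl⟩
      · exact Has.false'.of_iff fun w => by
          simp only [mem_mk, false_iff]
          rintro ⟨h1, h2, h3, -⟩
          exact hz ⟨h1, h2, h3⟩
    have hvalid : Has 0 (mk fun w => mv δ m i w ⊆ T) := by
      have hA : ∀ z : α × α × ZMod p, Has 0 (mk fun w => z.2.2 ∉ T ∧ m z.1 z.2.1 ∧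
          ∃ x s v, Pin δ m T z.2.2 s ∧ (∃ t, s = t ++ [z.1]) ∧ w = x ++ (s ++ z.2.1 :: v)) := by
        intro z
        by_cases hz : z.2.2 ∉ T ∧ m z.1 z.2.1
        · refine (Has.true'.concat' (((hpin z.2.2).inter' (Has.last' z.1)).concat'
            (Has.head' z.2.1))).of_iff fun w => ?_
          simp only [mem_mk]
          constructor
          · rintro ⟨x, y, -, ⟨s, r, ⟨h1, h2⟩, ⟨v, rfl⟩, rfl⟩, rfl⟩
            exact ⟨hz.1, hz.2, x, s, v, h1, h2, rfl⟩
          · rintro ⟨-, -, x, s, v, h1, h2, rfl⟩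
            exact ⟨x, _, trivial, ⟨s, _, ⟨h1, h2⟩, ⟨v, rfl⟩, rfl⟩, rfl⟩
        · exact Has.false'.of_iff fun w => by
            simp only [mem_mk, false_iff]
            rintro ⟨h1, h2, -⟩
            exact hz ⟨h1, h2⟩
      have hB : ∀ z : α × α × ZMod p × {S // S ⊂ T}, Has 0 (mk fun w => z.2.2.1 ∉ T ∧
          m z.1 z.2.1 ∧ ∃ u v, mv δ m i u = z.2.2.2.1 ∧ i + wsum δ u = z.2.2.1 ∧
            (∃ t, u = t ++ [z.1]) ∧ w = u ++ z.2.1 :: v) := by
        intro z
        by_cases hz : z.2.2.1 ∉ T ∧ m z.1 z.2.1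
        · refine (((hexact _ z.2.2.2.2 i z.2.2.1).inter' (Has.last' z.1)).concat'
            (Has.head' z.2.1)).of_iff fun w => ?_
          simp only [mem_mk]
          constructor
          · rintro ⟨u, r, ⟨⟨h1, h2⟩, h3⟩, ⟨v, rfl⟩, rfl⟩
            exact ⟨hz.1, hz.2, u, v, h1, h2, h3, rfl⟩
          · rintro ⟨-, -, u, v, h1, h2, h3, rfl⟩
            exact ⟨u, _, ⟨⟨h1, h2⟩, h3⟩, ⟨v, rfl⟩, rfl⟩
        · exact Has.false'.of_iff fun w => by
            simp only [mem_mk, false_iff]
            rintro ⟨h1, h2, -⟩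
            exact hz ⟨h1, h2⟩
      refine ((Has.iUnion' hA).or' (Has.iUnion' hB)).not'.of_iff fun w => ?_
      simp only [mem_mk]
      constructor
      · intro hno
        by_contra hbad
        obtain ⟨u, a, b, v, rfl, h1, h2, h3⟩ := exists_exit δ m T w i hbad
        by_cases hfull : mv δ m i (u ++ [a]) = T
        · obtain ⟨x, s, e, hs⟩ := pin_exists δ m hne _ i hfull
          obtain ⟨c, -, -, hsne⟩ := pin_sound δ m hs
          obtain hnil | ⟨t, a', rfl⟩ := s.eq_nil_or_concat
          · exact hsne hnil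
          · rw [List.concat_eq_append] at e hs
            rw [← List.append_assoc] at e
            obtain ⟨rfl, hh⟩ := List.append_inj' e rfl
            obtain rfl : a = a' := by simpa using hh
            exact hno (Or.inl ⟨(a, b, _), h3, h2, x, t ++ [a], v, hs, ⟨t, rfl⟩, by simp⟩)
        · exact hno (Or.inr ⟨(a, b, _, ⟨_, Finset.ssubset_iff_subset_ne.2 ⟨h1, hfull⟩⟩), h3, h2,
            u ++ [a], v, rfl, rfl, ⟨u, rfl⟩, by simp⟩)
      · intro hw
        rintro (⟨⟨a, b, l⟩, hl, hm, x, s, v, hs, ⟨t, rfl⟩, rfl⟩ |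
          ⟨⟨a, b, l, S⟩, hl, hm, u, v, -, hu, ⟨t, rfl⟩, rfl⟩)
        · obtain ⟨c, hc, hcl, -⟩ := pin_sound δ m hs
          have hsuf := (mv_suffix δ m x ((t ++ [a]) ++ b :: v) i).trans hw
          have hc' := eq_of_translate δ m hne hT hc
            ((mv_prefix δ m (t ++ [a]) (b :: v) _).trans hsuf)
          have hmem := hsuf (by
            have := mv_boundary δ m t a b v hm (i + wsum δ x)
            simpa using this)
          exact hl (hcl ▸ (by simpa [hc'] using hmem))
        · have hmem := hw (by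
            have := mv_boundary δ m t a b v hm i
            simpa using this)
          exact hl (hu ▸ (by simpa using hmem))
    refine ((Has.iUnion' (P := fun (S : {S // S ⊂ T}) w => mv δ m i w ⊆ S.1 ∧ i + wsum δ w = j)
      fun S => ih S.1 S.2 (hne_univ _ S.2) i j).or'
      (hvalid.inter' (Has.true'.concat' (hpin j)))).of_iff fun w => ?_
    simp only [mem_mk, SW]
    constructor
    · rintro (⟨S, h1, h2⟩ | ⟨h1, x, s, -, hs, rfl⟩)
      · exact ⟨h1.trans S.2.subset, h2⟩
      · obtain ⟨c, hc, hcj, -⟩ := pin_sound δ m hs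
        have := eq_of_translate δ m hne hT hc ((mv_suffix δ m x s i).trans h1)
        exact ⟨h1, by rw [wsum_append, ← add_assoc, this, hcj]⟩
    · rintro ⟨h1, h2⟩
      by_cases hfull : mv δ m i w = T
      · obtain ⟨x, s, e, hs⟩ := pin_exists δ m hne w i hfull
        exact Or.inr ⟨h1, x, s, trivial, h2 ▸ hs, e⟩
      · exact Or.inl ⟨⟨_, Finset.ssubset_iff_subset_ne.2 ⟨h1, hfull⟩⟩, subset_rfl, h2⟩

end Vale.Agent.P329
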